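import Vale.Agent.P073.LR580.OneD
import Vale.Agent.P073.LR.SubdivLR752
import Vale.Agent.P073.Gauge.Lin907
import Vale.Agent.P073.Spec.Top

/-!
# P073, LR580: the output of NET for arbitrary locally finite families of rational segments
-/

open Set Metric Topology MeasureTheory Filter
open scoped ENNReal

namespace P073.LR580

open Vale.Agent.P073.St (V euc IsHomeo)
open P073.Net (euc_nonneg euc_smul Graph ACOn)
open P073.PLS (Rat3)
open P073.Top (RatAC NetOut)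

/-- `NetOut` for a locally finite family of rational segments (crossings and overlaps allowed). -/
def NetOutFam : Prop :=
  ∀ (p : ℝ) (Ω Λ : Set V) (f : V → V) (o : V) (ι : Type) (_ : Countable ι) (a b : ι → V)
    (D : ι → ℝ → V), 1 ≤ p → p ≤ 2 → IsOpen Ω → IsConnected Ω → IsOpen Λ → IsHomeo Ω Λ f →
    RatAC o Ω f → (∀ i, a i ∈ Rat3 o ∧ b i ∈ Rat3 o ∧ a i ≠ b i) →
    (∀ i, segment ℝ (a i) (b i) ⊆ Ω) →
    (∀ K ⊆ Ω, IsCompact K → {i | (segment ℝ (a i) (b i) ∩ K).Nonempty}.Finite) →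
    (∀ i, IntervalIntegrable (D i) volume 0 1) →
    (∀ i, ∀ t ∈ Icc (0:ℝ) 1, f (a i + t • (b i - a i)) = f (a i) + ∫ s in (0:ℝ)..t, D i s) →
    (∀ i, IntervalIntegrable (fun t => euc (D i t) ^ p) volume 0 1) →
    ∀ ε : ι → ℝ, (∀ i, 0 < ε i) →
    ∃ h : ConHomeo Ω Λ, ∀ i,
      (∀ t ∈ Icc (0:ℝ) 1,
        ‖h.toFun (a i + t • (b i - a i)) - f (a i + t • (b i - a i))‖ ≤ ε i) ∧
      (∃ K : NNReal, LipschitzOnWith K (fun t : ℝ => h.toFun (a i + t • (b i - a i)))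
        (Icc 0 1)) ∧
      ∫⁻ t in Icc (0:ℝ) 1, ENNReal.ofReal
        (euc (deriv (fun s => h.toFun (a i + s • (b i - a i))) t - D i t) ^ p) ≤
          ENNReal.ofReal (ε i)

theorem lintegral_biUnion_le {κ : Type} (S : Finset κ) (s : κ → Set ℝ) (F : ℝ → ℝ≥0∞) :
    ∫⁻ x in ⋃ j ∈ S, s j, F x ≤ ∑ j ∈ S, ∫⁻ x in s j, F x := by
  classical
  induction S using Finset.induction_on with
  | empty => simp
  | insert j S hj ih =>
    rw [Finset.set_biUnion_insert, Finset.sum_insert hj]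
    exact (lintegral_union_le _ _ _).trans (by gcongr)

/-- parameters of a subsegment -/
theorem exists_param {a b a' b' : V} (hab' : a' ≠ b')
    (h : segment ℝ a' b' ⊆ segment ℝ a b) : ∃ α ∈ Icc (0:ℝ) 1, ∃ β ∈ Icc (0:ℝ) 1, β - α ≠ 0 ∧
      ∀ r : ℝ, a' + r • (b' - a') = a + (α + r * (β - α)) • (b - a) := by
  have h1 := h (left_mem_segment ℝ a' b')
  have h2 := h (right_mem_segment ℝ a' b')
  rw [segment_eq_image'] at h1 h2
  obtain ⟨α, hα, e1⟩ := h1
  obtain ⟨β, hβ, e2⟩ := h2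
  have e1' : a' = a + α • (b - a) := e1.symm
  have e2' : b' = a + β • (b - a) := e2.symm
  refine ⟨α, hα, β, hβ, ?_, fun r => ?_⟩
  · intro h0
    apply hab'
    rw [e1', e2', sub_eq_zero.1 h0]
  · rw [e1', e2']; module

theorem netOutFam (hNet : NetOut) : NetOutFam := by
  classical
  intro p Ω Λ f o ι hι a b D hp1 hp2 hΩ hc hΛ hf hAC hab hsub hfin hD hDe hDp ε hε
  obtain ⟨G, hGc, hGr, hGs, hGu⟩ := P073.LR.specSubdivLR Ω o ι hι a b hΩ hab hsub hfin
  choose S hS using hGu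
  have hp0 : 0 ≤ p := by linarith
  -- AC on the edges
  have hex : ∀ j : G.ι, ∃ D' : ℝ → V, IntervalIntegrable D' volume 0 1 ∧
      ∀ t ∈ Icc (0:ℝ) 1, f (G.a j + t • (G.b j - G.a j)) = f (G.a j) + ∫ s in (0:ℝ)..t, D' s :=
    fun j => hAC _ (hGr j).1 _ (hGr j).2 (G.sub j)
  choose D' hD' hD'e using hex
  have hφ : ∀ i, ∀ t ∈ Icc (0:ℝ) 1, (fun t : ℝ => f (a i + t • (b i - a i))) t =
      (fun t : ℝ => f (a i + t • (b i - a i))) 0 + ∫ s in (0:ℝ)..t, D i s := by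
    intro i t ht
    show f _ = f _ + _
    rw [hDe i t ht, zero_smul, add_zero]
  have hψ : ∀ j, ∀ t ∈ Icc (0:ℝ) 1, (fun t : ℝ => f (G.a j + t • (G.b j - G.a j))) t =
      (fun t : ℝ => f (G.a j + t • (G.b j - G.a j))) 0 + ∫ s in (0:ℝ)..t, D' j s := by
    intro j t ht
    show f _ = f _ + _
    rw [hD'e j t ht, zero_smul, add_zero]
  have hACO : ACOn G f D' := ⟨hD', fun j t ht => hψ j t ht⟩
  have hsubj : ∀ i, ∀ j ∈ S i, segment ℝ (G.a j) (G.b j) ⊆ segment ℝ (a i) (b i) := by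
    intro i j hj
    rw [hS i]
    exact subset_biUnion_of_mem (u := fun j => segment ℝ (G.a j) (G.b j)) hj
  -- integrability of the energies
  have hG'p : ∀ j, IntervalIntegrable (fun t => euc (D' j t) ^ p) volume 0 1 := by
    intro j
    obtain ⟨i, hi⟩ := hGs j
    obtain ⟨α, hα, β, hβ, hne, he⟩ := exists_param (G.ne j) hi
    exact intInt_sub (φ := fun t : ℝ => f (a i + t • (b i - a i)))
      (ψ := fun t : ℝ => f (G.a j + t • (G.b j - G.a j))) (hD i) (hφ i) (hD' j) (hψ j) hα hβ hne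
      (fun r => by
        show f _ = f _
        rw [he r]) (hDp i)
  -- the parameters
  have hpar : ∀ i j, ∃ α β : ℝ, j ∈ S i → α ∈ Icc (0:ℝ) 1 ∧ β ∈ Icc (0:ℝ) 1 ∧ β - α ≠ 0 ∧
      ∀ r : ℝ, G.a j + r • (G.b j - G.a j) = a i + (α + r * (β - α)) • (b i - a i) := by
    intro i j
    by_cases hj : j ∈ S i
    · obtain ⟨α, hα, β, hβ, hne, he⟩ := exists_param (G.ne j) (hsubj i j hj)
      exact ⟨α, β, fun _ => ⟨hα, hβ, hne, he⟩⟩
    · exact ⟨0, 0, fun h => absurd h hj⟩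
  choose α β hαβ using hpar
  set c : ι → G.ι → ℝ := fun i j => |β i j - α i j| * (|β i j - α i j| ^ p)⁻¹ with hc'
  have hc0 : ∀ i j, 0 ≤ c i j := fun i j => by simp only [hc']; positivity
  set κ : ι → ℝ := fun i => ε i / (1 + ∑ j ∈ S i, c i j) with hκ
  have hden : ∀ i, 0 < 1 + ∑ j ∈ S i, c i j := fun i => by
    have := Finset.sum_nonneg (fun j (_ : j ∈ S i) => hc0 i j)
    linarith
  have hκ0 : ∀ i, 0 < κ i := fun i => div_pos (hε i) (hden i)
  -- the near segments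
  have hseg : ∀ j, IsCompact (segment ℝ (G.a j) (G.b j)) := fun j => by
    rw [segment_eq_image']
    exact isCompact_Icc.image (by fun_prop)
  have hN : ∀ j, {i | (segment ℝ (a i) (b i) ∩ segment ℝ (G.a j) (G.b j)).Nonempty}.Finite :=
    fun j => hfin _ (G.sub j) (hseg j)
  have hNe : ∀ j, (hN j).toFinset.Nonempty := fun j => by
    obtain ⟨i, hi⟩ := hGs j
    exact ⟨i, (hN j).mem_toFinset.2 ⟨G.a j, hi (left_mem_segment ℝ _ _),
      left_mem_segment ℝ _ _⟩⟩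
  set εG : G.ι → ℝ := fun j => (hN j).toFinset.inf' (hNe j) fun i => min (ε i) (κ i) with hεG
  have hεG0 : ∀ j, 0 < εG j := fun j => by
    simp only [hεG]
    rw [Finset.lt_inf'_iff]
    exact fun i _ => lt_min (hε i) (hκ0 i)
  have hεGle : ∀ i, ∀ j ∈ S i, εG j ≤ ε i ∧ εG j ≤ κ i := by
    intro i j hj
    have h1 : i ∈ (hN j).toFinset := (hN j).mem_toFinset.2 ⟨G.a j,
      hsubj i j hj (left_mem_segment ℝ _ _), left_mem_segment ℝ _ _⟩
    have h2 : εG j ≤ min (ε i) (κ i) := Finset.inf'_le _ h1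
    exact ⟨h2.trans (min_le_left _ _), h2.trans (min_le_right _ _)⟩
  obtain ⟨h, hh⟩ := hNet p Ω Λ f o G D' hp1 hp2 hΩ hc hΛ hf hAC hGr hACO hG'p εG hεG0
  -- cover of the parameter interval
  have hcov : ∀ i, ∀ t ∈ Icc (0:ℝ) 1, ∃ j ∈ S i, ∃ r ∈ Icc (0:ℝ) 1,
      t = α i j + r * (β i j - α i j) := by
    intro i t ht
    have h1 : a i + t • (b i - a i) ∈ segment ℝ (a i) (b i) := by
      rw [segment_eq_image']; exact ⟨t, ht, rfl⟩
    rw [hS i] at h1
    obtain ⟨j, hj, h2⟩ := mem_iUnion₂.1 h1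
    rw [segment_eq_image'] at h2
    obtain ⟨r, hr, h3⟩ := h2
    have h4 : G.a j + r • (G.b j - G.a j) = a i + t • (b i - a i) := h3
    rw [(hαβ i j hj).2.2.2 r] at h4
    refine ⟨j, hj, r, hr, ?_⟩
    have h5 : (α i j + r * (β i j - α i j) - t) • (b i - a i) = 0 := by
      rw [sub_smul, sub_eq_zero]
      exact add_left_cancel h4
    rcases smul_eq_zero.1 h5 with h6 | h6
    · linarith
    · exact absurd (sub_eq_zero.1 h6).symm (hab i).2.2
  refine ⟨h, fun i => ⟨?_, ?_, ?_⟩⟩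
  · intro t ht
    obtain ⟨j, hj, r, hr, rfl⟩ := hcov i t ht
    rw [← (hαβ i j hj).2.2.2 r]
    exact ((hh j).1 r hr).trans (hεGle i j hj).1
  · refine (P073.Gauge.specLin Ω Λ h (a i) (b i - a i) hΩ ?_).2.2
    intro t ht
    apply hsub i
    rw [segment_eq_image']; exact ⟨t, ht, rfl⟩
  · set F : ℝ → ℝ≥0∞ := fun t => ENNReal.ofReal
      (euc (deriv (fun s => h.toFun (a i + s • (b i - a i))) t - D i t) ^ p) with hF
    have hsubs : Icc (0:ℝ) 1 ⊆ ⋃ j ∈ S i, uIcc (α i j) (β i j) := by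
      intro t ht
      obtain ⟨j, hj, r, hr, rfl⟩ := hcov i t ht
      refine mem_iUnion₂.2 ⟨j, hj, ?_⟩
      rw [← segment_eq_uIcc, segment_eq_image']
      exact ⟨r, hr, by simp [smul_eq_mul]⟩
    have hpiece : ∀ j ∈ S i, ∫⁻ t in uIcc (α i j) (β i j), F t ≤
        ENNReal.ofReal (c i j * εG j) := by
      intro j hj
      obtain ⟨h1, h2, h3, h4⟩ := hαβ i j hj
      have h5 := energy_sub (p := p) (φ := fun t : ℝ => f (a i + t • (b i - a i)))
        (ψ := fun t : ℝ => f (G.a j + t • (G.b j - G.a j)))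
        (Φ := fun s : ℝ => h.toFun (a i + s • (b i - a i)))
        (Ψ := fun r : ℝ => h.toFun (G.e j r)) (hD i) (hφ i) (hD' j) (hψ j) h1 h2 h3
        (fun r => by show f _ = f _; rw [h4 r])
        (fun r => by show h.toFun (G.a j + r • (G.b j - G.a j)) = h.toFun _; rw [h4 r])
      refine h5.trans ?_
      rw [ENNReal.ofReal_mul (hc0 i j)]
      gcongr
      exact (hh j).2.2
    calc ∫⁻ t in Icc (0:ℝ) 1, F t ≤ ∫⁻ t in ⋃ j ∈ S i, uIcc (α i j) (β i j), F t :=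
          lintegral_mono_set hsubs
      _ ≤ ∑ j ∈ S i, ∫⁻ t in uIcc (α i j) (β i j), F t := lintegral_biUnion_le _ _ _
      _ ≤ ∑ j ∈ S i, ENNReal.ofReal (c i j * κ i) := by
          refine Finset.sum_le_sum fun j hj => (hpiece j hj).trans (ENNReal.ofReal_le_ofReal ?_)
          exact mul_le_mul_of_nonneg_left (hεGle i j hj).2 (hc0 i j)
      _ = ENNReal.ofReal (∑ j ∈ S i, c i j * κ i) :=
          (ENNReal.ofReal_sum_of_nonneg fun j _ => mul_nonneg (hc0 i j) (hκ0 i).le).symm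
      _ ≤ ENNReal.ofReal (ε i) := by
          refine ENNReal.ofReal_le_ofReal ?_
          rw [← Finset.sum_mul]
          simp only [hκ]
          rw [mul_div_assoc', div_le_iff₀ (hden i), mul_comm]
          have := mul_pos (hε i) zero_lt_one
          nlinarith [hε i]

end P073.LR580
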