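import Vale.Agent.P073.Net.Len

/-!
# P073, LR580: absolutely continuous curves on subsegments
-/

open Set Metric Topology MeasureTheory Filter
open scoped ENNReal

namespace P073.LR580

open Vale.Agent.P073.St (V euc)
open P073.Net (euc_nonneg euc_smul)

/-- an integral function is differentiable almost everywhere -/
theorem ae_hasDerivAt {φ D : ℝ → V} (hD : IntervalIntegrable D volume 0 1)
    (hφ : ∀ t ∈ Icc (0:ℝ) 1, φ t = φ 0 + ∫ s in (0:ℝ)..t, D s) :
    ∀ᵐ t : ℝ, t ∈ Ioo (0:ℝ) 1 → HasDerivAt φ (D t) t := by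
  filter_upwards [hD.ae_hasDerivAt_integral] with t ht ht1
  have h1 := ht (by rw [uIcc_of_le zero_le_one]; exact Ioo_subset_Icc_self ht1) 0
    (by rw [uIcc_of_le zero_le_one]; exact left_mem_Icc.2 zero_le_one)
  have h2 : HasDerivAt (fun x => φ 0 + ∫ s in (0:ℝ)..x, D s) (D t) t := h1.const_add _
  refine h2.congr_of_eventuallyEq ?_
  filter_upwards [isOpen_Ioo.mem_nhds ht1] with x hx
  exact hφ x (Ioo_subset_Icc_self hx)

/-- the affine homeomorphism `r ↦ α + r (β - α)` -/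
noncomputable def aff1 (α β : ℝ) (h : β - α ≠ 0) : ℝ ≃ₜ ℝ :=
  (Homeomorph.mulRight₀ (β - α) h).trans (Homeomorph.addLeft α)

theorem aff1_apply {α β : ℝ} (h : β - α ≠ 0) (r : ℝ) : aff1 α β h r = α + r * (β - α) := rfl

theorem map_aff1 {α β : ℝ} (h : β - α ≠ 0) :
    Measure.map (aff1 α β h) volume = ENNReal.ofReal |(β - α)⁻¹| • (volume : Measure ℝ) := by
  have h1 : Measure.map (fun r : ℝ => r * (β - α)) volume =
      ENNReal.ofReal |(β - α)⁻¹| • (volume : Measure ℝ) := Real.map_volume_mul_right h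
  have h2 : (aff1 α β h : ℝ → ℝ) = (fun x => α + x) ∘ fun r => r * (β - α) := rfl
  rw [h2, ← Measure.map_map (by fun_prop) (by fun_prop), h1, Measure.map_smul,
    map_add_left_eq_self]

/-- properties true a.e. are true a.e. along the affine map -/
theorem ae_aff1 {α β : ℝ} (h : β - α ≠ 0) {P : ℝ → Prop} (hP : ∀ᵐ t : ℝ, P t) :
    ∀ᵐ r : ℝ, P (α + r * (β - α)) := by
  have h1 : ∀ᵐ t ∂(Measure.map (aff1 α β h) volume), P t := by
    rw [map_aff1]
    exact Measure.ae_smul_measure hP _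
  exact ae_of_ae_map (aff1 α β h).continuous.aemeasurable h1

theorem aff1_mem {α β r : ℝ} (hα : α ∈ Icc (0:ℝ) 1) (hβ : β ∈ Icc (0:ℝ) 1) (h : β - α ≠ 0)
    (hr : r ∈ Ioo (0:ℝ) 1) : α + r * (β - α) ∈ Ioo (0:ℝ) 1 := by
  obtain ⟨h0, h1⟩ := hr
  have e : α + r * (β - α) = (1 - r) * α + r * β := by ring
  rw [e]
  rcases lt_or_gt_of_ne h with hlt | hgt
  · have hab : β < α := by linarith
    constructor
    · have := mul_pos (show 0 < 1 - r by linarith) (show 0 < α by linarith [hβ.1])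
      have := mul_nonneg h0.le hβ.1
      linarith
    · have := mul_le_mul_of_nonneg_left hα.2 (show 0 ≤ 1 - r by linarith)
      have := mul_lt_mul_of_pos_left (show β < 1 by linarith [hα.2]) h0
      linarith
  · have hab : α < β := by linarith
    constructor
    · have := mul_nonneg (show 0 ≤ 1 - r by linarith) hα.1
      have := mul_pos h0 (show 0 < β by linarith [hα.1])
      linarith
    · have := mul_lt_mul_of_pos_left (show α < 1 by linarith [hβ.2]) (show 0 < 1 - r by linarith)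
      have := mul_le_mul_of_nonneg_left hβ.2 h0.le
      linarith

/-- the derivative of a subcurve -/
theorem ae_sub {φ D ψ D' : ℝ → V} {α β : ℝ} (hD : IntervalIntegrable D volume 0 1)
    (hφ : ∀ t ∈ Icc (0:ℝ) 1, φ t = φ 0 + ∫ s in (0:ℝ)..t, D s)
    (hD' : IntervalIntegrable D' volume 0 1)
    (hψ : ∀ t ∈ Icc (0:ℝ) 1, ψ t = ψ 0 + ∫ s in (0:ℝ)..t, D' s)
    (hα : α ∈ Icc (0:ℝ) 1) (hβ : β ∈ Icc (0:ℝ) 1) (h : β - α ≠ 0)
    (he : ∀ r, ψ r = φ (α + r * (β - α))) :
    ∀ᵐ r : ℝ, r ∈ Ioo (0:ℝ) 1 → D' r = (β - α) • D (α + r * (β - α)) := by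
  filter_upwards [ae_hasDerivAt hD' hψ, ae_aff1 h (ae_hasDerivAt hD hφ)] with r h1 h2 hr
  have h3 := h1 hr
  have h4 := h2 (aff1_mem hα hβ h hr)
  have h5 : HasDerivAt (fun r : ℝ => α + r * (β - α)) (β - α) r := by
    simpa using ((hasDerivAt_id r).mul_const (β - α)).const_add α
  have h6 : HasDerivAt ψ ((β - α) • D (α + r * (β - α))) r := by
    have := h4.scomp r h5
    have e : ψ = φ ∘ fun r : ℝ => α + r * (β - α) := funext he
    rw [e]; exact this
  exact h3.unique h6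

theorem intInt_aff {F : ℝ → ℝ} {α β : ℝ} (hF : IntervalIntegrable F volume 0 1)
    (hα : α ∈ Icc (0:ℝ) 1) (hβ : β ∈ Icc (0:ℝ) 1) (h : β - α ≠ 0) :
    IntervalIntegrable (fun r => F (α + r * (β - α))) volume 0 1 := by
  have h1 : IntervalIntegrable F volume α β := by
    refine hF.mono_set ?_
    rw [uIcc_of_le (zero_le_one' ℝ)]
    exact fun x hx => ⟨(le_min hα.1 hβ.1).trans hx.1, hx.2.trans (max_le hα.2 hβ.2)⟩
  have h2 := h1.comp_add_left α
  have h3 := h2.comp_mul_right (c := β - α)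
  rwa [sub_self, zero_div, div_self h] at h3

/-- integrability of the energy of a subcurve -/
theorem intInt_sub {φ D ψ D' : ℝ → V} {α β p : ℝ} (hD : IntervalIntegrable D volume 0 1)
    (hφ : ∀ t ∈ Icc (0:ℝ) 1, φ t = φ 0 + ∫ s in (0:ℝ)..t, D s)
    (hD' : IntervalIntegrable D' volume 0 1)
    (hψ : ∀ t ∈ Icc (0:ℝ) 1, ψ t = ψ 0 + ∫ s in (0:ℝ)..t, D' s)
    (hα : α ∈ Icc (0:ℝ) 1) (hβ : β ∈ Icc (0:ℝ) 1) (h : β - α ≠ 0)
    (he : ∀ r, ψ r = φ (α + r * (β - α)))
    (hp : IntervalIntegrable (fun t => euc (D t) ^ p) volume 0 1) :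
    IntervalIntegrable (fun t => euc (D' t) ^ p) volume 0 1 := by
  have h1 := (intInt_aff hp hα hβ h).const_mul (|β - α| ^ p)
  refine h1.congr_ae ?_
  rw [uIoc_of_le zero_le_one, EventuallyEq, ae_restrict_iff' measurableSet_Ioc]
  have hne : ∀ᵐ r : ℝ, r ≠ 1 := by simp [ae_iff, measure_singleton]
  filter_upwards [ae_sub hD hφ hD' hψ hα hβ h he, hne] with r hr hr1 hr2
  rw [hr ⟨hr2.1, lt_of_le_of_ne hr2.2 hr1⟩, euc_smul,
    Real.mul_rpow (abs_nonneg _) (euc_nonneg _)]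

/-- energy on a subsegment -/
theorem energy_sub {φ D ψ D' Φ Ψ : ℝ → V} {α β p : ℝ}
    (hD : IntervalIntegrable D volume 0 1)
    (hφ : ∀ t ∈ Icc (0:ℝ) 1, φ t = φ 0 + ∫ s in (0:ℝ)..t, D s)
    (hD' : IntervalIntegrable D' volume 0 1)
    (hψ : ∀ t ∈ Icc (0:ℝ) 1, ψ t = ψ 0 + ∫ s in (0:ℝ)..t, D' s)
    (hα : α ∈ Icc (0:ℝ) 1) (hβ : β ∈ Icc (0:ℝ) 1) (h : β - α ≠ 0)
    (he : ∀ r, ψ r = φ (α + r * (β - α))) (hE : ∀ r, Ψ r = Φ (α + r * (β - α))) :
    ∫⁻ t in uIcc α β, ENNReal.ofReal (euc (deriv Φ t - D t) ^ p) ≤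
      ENNReal.ofReal (|β - α| * (|β - α| ^ p)⁻¹) *
        ∫⁻ r in Icc (0:ℝ) 1, ENNReal.ofReal (euc (deriv Ψ r - D' r) ^ p) := by
  set F : ℝ → ℝ≥0∞ := fun t => ENNReal.ofReal (euc (deriv Φ t - D t) ^ p) with hF
  have habs : 0 < |β - α| := abs_pos.2 h
  have hpow : 0 < |β - α| ^ p := Real.rpow_pos_of_pos habs p
  -- change of variables
  have h1 : ∫⁻ t in uIcc α β, F t ∂(Measure.map (aff1 α β h) volume) =
      ∫⁻ r in (aff1 α β h) ⁻¹' uIcc α β, F (aff1 α β h r) := by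
    rw [(aff1 α β h).measurableEmbedding.restrict_map,
      (aff1 α β h).measurableEmbedding.lintegral_map]
  have h2 : (aff1 α β h) ⁻¹' uIcc α β ⊆ Icc 0 1 := by
    intro r hr
    rw [mem_preimage, aff1_apply] at hr
    rcases lt_or_gt_of_ne h with hlt | hgt
    · rw [uIcc_of_ge (by linarith)] at hr
      constructor
      · by_contra hneg
        push Not at hneg
        have := mul_pos_of_neg_of_neg hneg hlt
        linarith [hr.2]
      · by_contra hneg
        push Not at hneg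
        have : (r - 1) * (β - α) < 0 := mul_neg_of_pos_of_neg (by linarith) hlt
        linarith [hr.1]
    · rw [uIcc_of_le (by linarith)] at hr
      constructor
      · by_contra hneg
        push Not at hneg
        have := mul_neg_of_neg_of_pos hneg hgt
        linarith [hr.1]
      · by_contra hneg
        push Not at hneg
        have : 0 < (r - 1) * (β - α) := mul_pos (by linarith) hgt
        linarith [hr.2]
  have h3 : ∫⁻ t in uIcc α β, F t =
      ENNReal.ofReal |β - α| * ∫⁻ t in uIcc α β, F t ∂(Measure.map (aff1 α β h) volume) := by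
    rw [map_aff1, Measure.restrict_smul, lintegral_smul_measure, smul_eq_mul, ← mul_assoc,
      ← ENNReal.ofReal_mul habs.le, abs_inv, mul_inv_cancel₀ habs.ne', ENNReal.ofReal_one, one_mul]
  have h4 : ∀ᵐ r ∂(volume.restrict (Icc (0:ℝ) 1)), F (aff1 α β h r) =
      ENNReal.ofReal (|β - α| ^ p)⁻¹ * ENNReal.ofReal (euc (deriv Ψ r - D' r) ^ p) := by
    rw [ae_restrict_iff' measurableSet_Icc]
    have hne : ∀ᵐ r : ℝ, r ≠ 0 ∧ r ≠ 1 := by
      have := (Set.toFinite ({0, 1} : Set ℝ)).countable.ae_notMem volume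
      filter_upwards [this] with s hs
      simpa using hs
    filter_upwards [ae_sub hD hφ hD' hψ hα hβ h he, hne] with r hr hr1 hr2
    have h5 := hr ⟨lt_of_le_of_ne hr2.1 (Ne.symm hr1.1), lt_of_le_of_ne hr2.2 hr1.2⟩
    have h6 : deriv Ψ r = (β - α) • deriv Φ (α + r * (β - α)) := by
      have e : Ψ = fun r => (fun s => Φ (α + s)) ((β - α) * r) := funext fun r => by
        rw [hE, mul_comm]
      have e1 := deriv_comp_mul_left (β - α) (fun s => Φ (α + s)) r
      rw [deriv_comp_const_add] at e1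
      rw [e, mul_comm r]
      exact e1
    rw [h5, h6, ← smul_sub, euc_smul, Real.mul_rpow habs.le (euc_nonneg _),
      ← ENNReal.ofReal_mul (by positivity), ← mul_assoc, inv_mul_cancel₀ hpow.ne', one_mul]
    rfl
  calc ∫⁻ t in uIcc α β, F t
      = ENNReal.ofReal |β - α| * ∫⁻ r in (aff1 α β h) ⁻¹' uIcc α β, F (aff1 α β h r) := by
        rw [h3, h1]
    _ ≤ ENNReal.ofReal |β - α| * ∫⁻ r in Icc (0:ℝ) 1, F (aff1 α β h r) := by
        gcongr
    _ = ENNReal.ofReal |β - α| * ∫⁻ r in Icc (0:ℝ) 1, ENNReal.ofReal (|β - α| ^ p)⁻¹ *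
          ENNReal.ofReal (euc (deriv Ψ r - D' r) ^ p) := by
        rw [lintegral_congr_ae h4]
    _ = _ := by
        rw [lintegral_const_mul' _ _ ENNReal.ofReal_ne_top, ← mul_assoc,
          ← ENNReal.ofReal_mul habs.le]

end P073.LR580
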